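import Vale.Agent.P096.AT.Final

/-!
# P096: the strong Kadison-Kastler conjecture
-/

namespace Vale.Agent.Results.P096.StrongKadisonKastler

universe u

/-- Close von Neumann algebras are conjugate by a unitary close to the identity, uniformly over
all Hilbert spaces. -/
theorem result : ∀ ε : ℝ, 0 < ε → ∃ δ : ℝ, 0 < δ ∧
    ∀ (H : Type u) [NormedAddCommGroup H] [InnerProductSpace ℂ H] [CompleteSpace H]
      (M N : VonNeumannAlgebra H), Vale.Agent.P096.kkDist M N < δ →
        ∃ v ∈ unitary (H →L[ℂ] H), ‖v - 1‖ < ε ∧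
          (fun x => v * x * star v) '' (M : Set (H →L[ℂ] H)) = (N : Set (H →L[ℂ] H)) :=
  Vale.Agent.P096.AT.strongKK

end Vale.Agent.Results.P096.StrongKadisonKastler
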